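-- RD-BASE 9c2b3e1aa0f4b9701d8f05c3f3ed69d7fb12f2f1
import Vale.Agent.P028.MathlibUsed
import Vale.Agent.P028.RD.R764.GrpG
import Vale.Agent.P028.RD.R26.OmtB
import Vale.Agent.P028.RD.H530.Delta
import Vale.Agent.P028.RD.H758.XTree
attribute [-instance] ProperSMul.toContinuousSMul IsTopologicalTorsor.toContinuousSMul IdemSemiring.toCanonicallyOrderedAdd IdemSemiring.toMulLeftMono IdemSemiring.toMulRightMono AddQuantale.instAddLeftMono AddQuantale.instAddRightMono Quantale.instMulLeftMono Quantale.instMulRightMono FiniteDimensional.rclike_to_real IsScalarTower.complexToReal FiniteDimensional.complexToReal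

/-!
# The outer parts of a pair above a number `x` without primes of the denominators

Above `x` both elements are in one cell, and every prime of the reduced cofactors is unsplit and
omitted by the larger side, or a deviation of both.
-/

namespace Vale.P028.SK

open Finset CF

variable {g : Cfg}

/-- the dilution vanishes at the split primes -/
def NSpl (g : Cfg) (δ : ℕ → ℕ → ℝ) : Prop := ∀ q ∈ g.V, ∀ p, p ≤ N g → 0 < p → δ q p ≠ 0 →
  ¬ Spl g q p

theorem NSpl_dd (c1 c : ℝ) : NSpl g (dd g c1 c) := by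
  intro q _ p hp hp0 h
  have e : N g - (N g - p) = p := by omega
  have h1 := dd_ne (j := N g - p) (by rw [e]; exact h) (by omega)
  obtain ⟨-, -, -, -, -, -, -, -, -, h2⟩ := h1
  rwa [e] at h2

theorem prime_le_N (hV : g.V ⊆ Icc 1 (N g)) {i q r : ℕ} (hz : zs g ≤ z g i) (hq : q ∈ g.V)
    (hr : r ∈ g.V) (hc : Clean g (z g i) q r) {p : ℕ} (hp : p.Prime)
    (h : p ∣ rcof (z g i) (N g) (kc g q) q r ∨ p ∣ rcof (z g i) (N g) (kc g q) r q) :
    p ≤ N g := by
  obtain ⟨-, -, -, ha, hb⟩ := clean_cofac hV hz hq hr hc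
  obtain ⟨f1, f2⟩ := rcof_fac hV hz hq hr hc hp
  have hq1 := mem_Icc.1 (hV hq)
  have hr1 := mem_Icc.1 (hV hr)
  by_contra hlt
  have e1 := Nat.factorization_eq_zero_of_lt (show q < p by omega)
  have e2 := Nat.factorization_eq_zero_of_lt (show r < p by omega)
  rcases h with h | h
  · have := hp.factorization_pos_of_dvd ha.ne' h
    split_ifs at f1 <;> omega
  · have := hp.factorization_pos_of_dvd hb.ne' h
    split_ifs at f2 <;> omega

section PD

variable {i t q r : ℕ} {n : ℤ} {F G : ℚ} {δ : ℕ → ℕ → ℝ}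

/-- a prime of the reduced cofactor of `q` above `t` which does not divide `B` is omitted by `q` or
a deviation of `q` -/
theorem PD.dev_or_omt (hJ : JsOK g.K g.Js) (hX : g.Js ≤ g.X) (hV : g.V ⊆ Icc 1 (N g))
    (h : PD g i t q r n F G) (hK : Kd g δ q r n ≠ 0)
    (hlog : (Real.log (CF.KK g i q F)) ^ (3 / 2 : ℝ) ≤ t)
    {p : ℕ} (hp : p.Prime) (htp : t < p) (hB : ¬ p ∣ BB g i q r F G)
    (hpa : p ∣ rcof (z g i) (N g) (kc g q) q r) :
    p ≤ z g i ∧ ((p ∈ UO g δ t (BB g i q r F G) q (rcof (z g i) (N g) (kc g q) q r) ∧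
      q.factorization p = kc g q p) ∨ q.factorization p < kc g q p) := by
  have hz := zs_le_z hJ hX i
  obtain ⟨-, -, -, h4, -⟩ := clean_cofac hV hz h.hq h.hr h.ta.2.2.1
  have hq0 : 0 < q := (mem_Icc.1 (hV h.hq)).1
  by_cases hU : p ∈ UO g δ t (BB g i q r F G) q (rcof (z g i) (N g) (kc g q) q r)
  · refine ⟨(mem_Lks.1 (h.leak_q hJ hX hV hU)).2.1, Or.inl ⟨hU, ?_⟩⟩
    exact ((CF.mem_Pm g hq0).1 (mem_UO.1 hU).2.2.2.1).2.2.1
  · have h1 : p ∣ rst g δ t (BB g i q r F G) q (rcof (z g i) (N g) (kc g q) q r) := by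
      rw [hp.dvd_iff_one_le_factorization (rst_pos g δ t _ q h4).ne',
        (omt_rst_fac g δ t _ q h4 p).2, if_neg hU]
      exact hp.factorization_pos_of_dvd h4.ne' hpa
    rcases h.alive_q hJ hX hV hK hlog hp htp h1 with h2 | ⟨h2, h3⟩
    · exact absurd h2 hB
    · exact ⟨h2, Or.inr h3⟩

/-- **above a number `x` without primes of the denominators both elements are in one cell** -/
theorem PD.cell_out (hJ : JsOK g.K g.Js) (hX : g.Js ≤ g.X) (hV : g.V ⊆ Icc 1 (N g))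
    (hN : NSpl g δ) (h : PD g i t q r n F G) (hK : Kd g δ q r n ≠ 0)
    (hl1 : (Real.log (CF.KK g i q F)) ^ (3 / 2 : ℝ) ≤ t)
    (hl2 : (Real.log (CF.KK g i r G)) ^ (3 / 2 : ℝ) ≤ t) {x : ℕ} (htx : t ≤ x)
    (hB : ∀ p : ℕ, p.Prime → x < p → ¬ p ∣ BB g i q r F G) :
    r ∈ NT.cell g.V (f g) (thr g) (N g) x q := by
  have hV' := hV
  have hz := zs_le_z hJ hX i
  have hc : Clean g (z g i) q r := h.ta.2.2.1
  have hq := h.hq
  have hr := h.hr
  by_contra hcon
  obtain ⟨p, hp, hzp, hpN, hcell, hs, hne⟩ := NT.exists_sep hr hcon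
  obtain ⟨hcz, hcr⟩ := clean_cross hV hz hq hr hc
  have hpz : p ≤ z g i := by
    by_contra hlt
    have h1 : r ∈ NT.cell g.V (f g) (thr g) (N g) (p - 1) q :=
      NT.cell_mono (by omega) q hcz
    rw [NT.cell_split hs.1.pos hpN hs, mem_filter] at h1
    exact hne h1.2
  have hce : NT.cell g.V (f g) (thr g) (N g) p r = NT.cell g.V (f g) (thr g) (N g) p q :=
    NT.cell_eq hcell
  have hsr : NT.Split (f g) (thr g) (NT.cell g.V (f g) (thr g) (N g) p r) p := by
    rw [hce]; exact hs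
  have k1 : kc g q p = q.factorization p := by
    unfold kc NT.kN
    rw [if_pos hpN, NT.kk_of_split hs]
  have k2 : kc g r p = r.factorization p := by
    unfold kc NT.kN
    rw [if_pos hpN, NT.kk_of_split hsr]
  obtain ⟨f1, f2⟩ := rcof_fac hV hz hq hr hc hp
  rw [if_pos hpz] at f1 f2
  have hBp := hB p hp hzp
  rcases lt_or_gt_of_ne hne with h1 | h1
  · have h2 : p ∣ rcof (z g i) (N g) (kc g q) q r := Nat.dvd_of_factorization_pos (by omega)
    rcases (h.dev_or_omt hJ hX hV hK hl1 hp (by omega) hBp h2).2 with ⟨h3, -⟩ | h3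
    · exact hN q hq p hpN hp.pos (mem_UO.1 h3).2.2.2.2 hs
    · omega
  · have h2 : p ∣ rcof (z g i) (N g) (kc g q) r q := Nat.dvd_of_factorization_pos (by omega)
    have h4 := h.swap
    have h5 := h4.dev_or_omt (δ := δ) hJ hX hV (by rw [Kd_swap]; exact hK) hl2 hp (by omega)
      (by rw [BB_swap]; exact hBp) (by rw [h.rcof_r hJ hX hV]; exact h2)
    rcases h5.2 with ⟨h3, -⟩ | h3
    · exact hN r hr p hpN hp.pos (mem_UO.1 h3).2.2.2.2 hsr
    · omega

/-- **the primes of the reduced cofactor of `q` above `x`** -/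
theorem PD.prime_out (hJ : JsOK g.K g.Js) (hX : g.Js ≤ g.X) (hV : g.V ⊆ Icc 1 (N g))
    (hN : NSpl g δ) (h : PD g i t q r n F G) (hK : Kd g δ q r n ≠ 0)
    (hl1 : (Real.log (CF.KK g i q F)) ^ (3 / 2 : ℝ) ≤ t)
    (hl2 : (Real.log (CF.KK g i r G)) ^ (3 / 2 : ℝ) ≤ t) {x : ℕ} (htx : t ≤ x)
    (hB : ∀ p : ℕ, p.Prime → x < p → ¬ p ∣ BB g i q r F G) {p : ℕ} (hp : p.Prime) (hxp : x < p)
    (hpa : p ∣ rcof (z g i) (N g) (kc g q) q r) :
    p ≤ z g i ∧ p ≤ N g ∧ kc g r p = kc g q p ∧ ¬ Spl g q p ∧ ¬ Spl g r p ∧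
      r.factorization p < q.factorization p ∧
      (rcof (z g i) (N g) (kc g q) q r).factorization p =
        q.factorization p - r.factorization p ∧
      ((p ∈ UO g δ t (BB g i q r F G) q (rcof (z g i) (N g) (kc g q) q r) ∧
        q.factorization p = kc g q p) ∨ q.factorization p < kc g q p) := by
  have hz := zs_le_z hJ hX i
  have hc : Clean g (z g i) q r := h.ta.2.2.1
  have hcell := h.cell_out hJ hX hV hN hK hl1 hl2 htx hB
  have hk : kc g r p = kc g q p := kc_congr hcell hxp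
  have hpN := prime_le_N hV hz h.hq h.hr hc hp (Or.inl hpa)
  obtain ⟨h1, h2⟩ := h.dev_or_omt hJ hX hV hK hl1 hp (by omega) (hB p hp hxp) hpa
  obtain ⟨-, -, -, ha, -⟩ := clean_cofac hV hz h.hq h.hr hc
  obtain ⟨f1, -⟩ := rcof_fac hV hz h.hq h.hr hc hp
  rw [if_pos h1] at f1
  have h3 := hp.factorization_pos_of_dvd ha.ne' hpa
  have hce : NT.cell g.V (f g) (thr g) (N g) p r = NT.cell g.V (f g) (thr g) (N g) p q :=
    NT.cell_eq (NT.cell_mono (by omega) q hcell)
  have hs : ¬ Spl g q p := by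
    intro hs
    have k1 : kc g q p = q.factorization p := by
      unfold kc NT.kN
      rw [if_pos hpN, NT.kk_of_split hs]
    rcases h2 with ⟨h4, -⟩ | h4
    · exact hN q h.hq p hpN hp.pos (mem_UO.1 h4).2.2.2.2 hs
    · omega
  have hs' : ¬ Spl g r p := by
    intro h4
    apply hs
    unfold Spl at h4 ⊢
    rwa [hce] at h4
  exact ⟨h1, hpN, hk, hs, hs', by omega, f1, h2⟩

/-- the mirror statement -/
theorem PD.prime_out_r (hJ : JsOK g.K g.Js) (hX : g.Js ≤ g.X) (hV : g.V ⊆ Icc 1 (N g))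
    (hN : NSpl g δ) (h : PD g i t q r n F G) (hK : Kd g δ q r n ≠ 0)
    (hl1 : (Real.log (CF.KK g i q F)) ^ (3 / 2 : ℝ) ≤ t)
    (hl2 : (Real.log (CF.KK g i r G)) ^ (3 / 2 : ℝ) ≤ t) {x : ℕ} (htx : t ≤ x)
    (hB : ∀ p : ℕ, p.Prime → x < p → ¬ p ∣ BB g i q r F G) {p : ℕ} (hp : p.Prime) (hxp : x < p)
    (hpa : p ∣ rcof (z g i) (N g) (kc g q) r q) :
    p ≤ z g i ∧ p ≤ N g ∧ kc g r p = kc g q p ∧ ¬ Spl g q p ∧ ¬ Spl g r p ∧
      q.factorization p < r.factorization p ∧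
      (rcof (z g i) (N g) (kc g q) r q).factorization p =
        r.factorization p - q.factorization p ∧
      ((p ∈ UO g δ t (BB g i q r F G) r (rcof (z g i) (N g) (kc g q) r q) ∧
        r.factorization p = kc g q p) ∨ r.factorization p < kc g q p) := by
  have h1 := h.swap.prime_out (δ := δ) hJ hX hV hN (by rw [Kd_swap]; exact hK) hl2 hl1 htx
    (fun p h1 h2 => by rw [BB_swap]; exact hB p h1 h2) hp hxp (by rw [h.rcof_r hJ hX hV]; exact hpa)
  rw [h.rcof_r hJ hX hV, BB_swap] at h1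
  obtain ⟨a1, a2, a3, a4, a5, a6, a7, a8⟩ := h1
  rw [← a3] at a8
  exact ⟨a1, a2, a3.symm, a5, a4, a6, a7, a8⟩

end PD

/-- no prime above `KS` divides `B` -/
theorem not_dvd_BB {i q r : ℕ} {F G : ℚ} {x : ℕ} (hx : KS g i q r F G ≤ x) {p : ℕ}
    (hp : p.Prime) (hxp : x < p) : ¬ p ∣ BB g i q r F G := by
  intro h
  unfold BB at h
  have key : ∀ (a : ℕ) (H : ℚ), CF.KK g i a H ≤ KS g i q r F G →
      ¬ p ∣ ((M g i a : ℚ) * H).den := by
    intro a H h1 h2
    have h3 := Nat.le_of_dvd (Rat.den_pos _) h2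
    have h4 : ((((M g i a : ℚ) * H).den : ℕ) : ℝ) ≤ CF.KK g i a H :=
      PA.den_le_Kc (g.γ) (psit g a) (M g i a) H
    have h5 : (((M g i a : ℚ) * H).den : ℝ) ≤ x := h4.trans (h1.trans hx)
    have h6 : ((M g i a : ℚ) * H).den ≤ x := by exact_mod_cast h5
    omega
  rcases hp.dvd_mul.1 h with h1 | h1
  · exact key q F (le_max_left _ _) h1
  · exact key r G (le_max_right _ _) h1

end Vale.P028.SK
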